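import Mathlib
import Vale.Agent.Lib.P318.Tree

/-!
# P318: capacities supported on a tree - the Goemans-Linial relaxation is exact

An instance is given by symmetric nonnegative capacities `c` on `Fin N`.  For a nonempty proper
subset `S` the ratio of the cut is `(∑ i ∈ S, ∑ j ∉ S, c i j) / (|S| (N - |S|))`, and the value
`Φ(c)` is the least ratio.  Assume that `c` vanishes outside the edges of a tree `T` on `Fin N`
(`N ≥ 2`).  Then there is a subset `S`, one of the two sides of `T` with one edge `u v` deleted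
(the vertices that remain joined to `u`), such that

1. `S` is a sparsest cut: its ratio is at most the ratio of every nonempty proper subset, so
   `Φ(c)` is the ratio of `S`, and `Φ(c)` is attained among the `N - 1` cuts given by the edges
   of `T`;
2. for every semimetric `d` on `Fin N` (symmetric, zero on the diagonal, triangle inequality;
   no negative-type condition), `Φ(c) * ∑_{i<j} d i j ≤ ∑_{i<j} c i j * d i j`;
3. in particular every feasible point of the Goemans-Linial relaxation (`d i j = ‖x i - x j‖ ^ 2`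
   for vectors `x i` of `ℝ^N`, all triangle inequalities, `∑_{i<j} d i j = 1`) has objective
   value at least `Φ(c)`.  Hence `GL(c) ≥ Φ(c)`, and as `GL(c) ≤ Φ(c)` always, `GL(c) = Φ(c)`:
   the integrality gap is one on this class of instances.

Proof outline.  Deleting an edge `u v` of the tree leaves `u` and `v` in different components;
let `S(u,v)` be the component of `u`.  The only pair with nonzero capacity leaving `S(u,v)` is
`(u, v)`.  For two vertices `i, j`, the triangle inequality along the path of `T` from `i` to `j`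
bounds `d i j` by the sum of `d u v` over the ordered edges `(u, v)` of the path, and each of
these has `i ∈ S(u,v)`, `j ∉ S(u,v)`.  Summing over `i, j` gives
`∑ d i j ≤ ∑_{(u,v)} d u v |S(u,v)| (N - |S(u,v)|)`, and the edge with the least value of
`c u v / (|S(u,v)| (N - |S(u,v)|))` gives the cut.  Part 1 is part 2 for the cut semimetric of
the other subset.
-/

namespace Vale.Agent.Results.P318.A_TreeCapacities

open Vale.Agent.Lib.P318

theorem result (N : ℕ) (hN : 2 ≤ N) (c : Fin N → Fin N → ℝ)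
    (hc0 : ∀ i j, 0 ≤ c i j) (hcs : ∀ i j, c i j = c j i)
    (T : SimpleGraph (Fin N)) (hT : T.IsTree) (hsupp : ∀ i j, c i j ≠ 0 → T.Adj i j) :
    ∃ (S : Finset (Fin N)) (u v : Fin N), T.Adj u v ∧
      (∀ x, x ∈ S ↔ (T.deleteEdges {s(u, v)}).Reachable u x) ∧
      S.Nonempty ∧ S ≠ Finset.univ ∧
      (∀ S' : Finset (Fin N), S'.Nonempty → S' ≠ Finset.univ →
        (∑ i ∈ S, ∑ j ∈ Sᶜ, c i j) / ((S.card : ℝ) * ((N : ℝ) - S.card)) ≤
          (∑ i ∈ S', ∑ j ∈ S'ᶜ, c i j) / ((S'.card : ℝ) * ((N : ℝ) - S'.card))) ∧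
      (∀ d : Fin N → Fin N → ℝ, (∀ i, d i i = 0) → (∀ i j, d i j = d j i) →
        (∀ i j k, d i k ≤ d i j + d j k) →
        (∑ i ∈ S, ∑ j ∈ Sᶜ, c i j) / ((S.card : ℝ) * ((N : ℝ) - S.card)) *
            (∑ i, ∑ j, if i < j then d i j else 0)
          ≤ ∑ i, ∑ j, if i < j then c i j * d i j else 0) ∧
      (∀ x : Fin N → EuclideanSpace ℝ (Fin N),
        (∀ i j k, ‖x i - x k‖ ^ 2 ≤ ‖x i - x j‖ ^ 2 + ‖x j - x k‖ ^ 2) →
        (∑ i, ∑ j, if i < j then ‖x i - x j‖ ^ 2 else 0) = 1 →
        (∑ i ∈ S, ∑ j ∈ Sᶜ, c i j) / ((S.card : ℝ) * ((N : ℝ) - S.card))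
          ≤ ∑ i, ∑ j, if i < j then c i j * ‖x i - x j‖ ^ 2 else 0) := by
  have hab : (⟨0, by omega⟩ : Fin N) ≠ ⟨1, by omega⟩ := by
    intro h
    simp [Fin.ext_iff] at h
  obtain ⟨S, ⟨q, hq, rfl⟩, hne, hnu, hd⟩ := tree_cut hT hab c hc0 hsupp
  simp only [Fintype.card_fin] at hd
  have hc00 : ∀ i, c i i = 0 := by
    intro i
    by_contra h
    exact (hsupp i i h).ne rfl
  have key : ∀ d : Fin N → Fin N → ℝ, (∀ i, d i i = 0) → (∀ i j, d i j = d j i) →
      (∀ i j k, d i k ≤ d i j + d j k) →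
      (∑ i ∈ side T q, ∑ j ∈ (side T q)ᶜ, c i j) /
          (((side T q).card : ℝ) * ((N : ℝ) - (side T q).card)) *
            (∑ i, ∑ j, if i < j then d i j else 0)
        ≤ ∑ i, ∑ j, if i < j then c i j * d i j else 0 := by
    intro d d0 ds dt
    have h := hd d d0 ds dt
    rw [sum_lt_eq d d0 ds, sum_lt_eq (fun i j => c i j * d i j) (fun i => by simp [d0])
      (fun i j => by rw [hcs i j, ds i j])] at h
    have h2 : ∀ R X : ℝ, R * (2 * X) = 2 * (R * X) := fun R X => by ring
    rw [h2] at h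
    linarith
  refine ⟨side T q, q.1, q.2, hq, ?_, hne, hnu, ?_, key, ?_⟩
  · intro x
    rw [mem_side, SimpleGraph.reachable_deleteEdges_iff_exists_walk]
  · intro S' hS' hS'u
    have d0 : ∀ i : Fin N, (if (i ∈ S' ↔ i ∈ S') then (0 : ℝ) else 1) = 0 := fun i => by simp
    have ds : ∀ i j : Fin N, (if (i ∈ S' ↔ j ∈ S') then (0 : ℝ) else 1)
        = (if (j ∈ S' ↔ i ∈ S') then (0 : ℝ) else 1) := by
      intro i j
      by_cases hi : i ∈ S' <;> by_cases hj : j ∈ S' <;> simp [hi, hj]
    have dt : ∀ i j k : Fin N, (if (i ∈ S' ↔ k ∈ S') then (0 : ℝ) else 1)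
        ≤ (if (i ∈ S' ↔ j ∈ S') then (0 : ℝ) else 1)
          + (if (j ∈ S' ↔ k ∈ S') then (0 : ℝ) else 1) := by
      intro i j k
      by_cases hi : i ∈ S' <;> by_cases hj : j ∈ S' <;> by_cases hk : k ∈ S' <;>
        simp [hi, hj, hk]
    have h := hd (fun i j => if (i ∈ S' ↔ j ∈ S') then (0 : ℝ) else 1) d0 ds dt
    have e1 := cut_semimetric_sum S' c hcs
    have e2 := cut_semimetric_sum S' (fun _ _ => (1 : ℝ)) (fun _ _ => rfl)
    simp only [one_mul, Finset.sum_const, nsmul_eq_mul, mul_one] at e2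
    rw [e1, e2] at h
    have hcard : ((S'ᶜ.card : ℕ) : ℝ) = (N : ℝ) - S'.card := by
      rw [Finset.card_compl, Nat.cast_sub (Finset.card_le_univ _), Fintype.card_fin]
    rw [hcard] at h
    have hpos1 : (0 : ℝ) < S'.card := by exact_mod_cast Finset.card_pos.2 hS'
    have hlt : S'.card < N := by
      have := Finset.card_lt_card (Finset.ssubset_univ_iff.2 hS'u)
      simpa using this
    have hpos2 : (0 : ℝ) < (N : ℝ) - S'.card := by
      have : (S'.card : ℝ) < N := by exact_mod_cast hlt
      linarith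
    rw [le_div_iff₀ (mul_pos hpos1 hpos2)]
    have h2 : ∀ R X : ℝ, R * (2 * X) = 2 * (R * X) := fun R X => by ring
    rw [h2] at h
    linarith
  · intro x ht hnorm
    have h := key (fun i j => ‖x i - x j‖ ^ 2) (fun i => by simp)
      (fun i j => by rw [norm_sub_rev]) ht
    rw [hnorm, mul_one] at h
    exact h

end Vale.Agent.Results.P318.A_TreeCapacities
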